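import Vale.Agent.P354HI.Kd
import Vale.Agent.P354HI.Kt
import Vale.Agent.P354XG.Dual
import Vale.Agent.P354XG.ToTD
import Vale.Agent.P354XR.Raw

/-!
The almost Killing field commutes with the frame up to small terms.
-/

namespace Vale.Agent.P354HK

open Vale.Agent.P354XF (Tv Gen Gn M fr gam g0 Up wd)
open Vale.Agent.P354XG (GHP D_mul D_cube starOf)
open Vale.Agent.P354HI
open Vale.Agent.P354XR (piT fr_piG)

variable {A B : Type*} [CommRing A] [Algebra ℂ A] [CommRing B] [Algebra ℂ B] {T : Tv A} {ze zi f : A}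
  {j n a l : ℕ}

theorem of_gen (h : M T.gen j n a l f) : M (gz T zi) j n a l f :=
  h.map (RingHom.id A) (fun p => (p.1, some p.2)) (fun z => ⟨z, rfl⟩) fun _ => ⟨rfl, rfl, rfl, id⟩

theorem conj_gz (h : M (gz T zi) j n a l f) : M (gz T zi) j n a l (T.G.c f) :=
  h.map T.G.c (fun p => (!p.1, p.2)) (fun z => ⟨_, T.is.calg z⟩) (by
    rintro ⟨_ | _, _ | x⟩
    · exact ⟨rfl, rfl, rfl, id⟩
    · exact ⟨rfl, rfl, rfl, id⟩
    · exact ⟨T.is.cc _, rfl, rfl, id⟩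
    · exact ⟨T.is.cc _, rfl, rfl, id⟩)

theorem m_zi : M (gz T zi) 0 0 0 0 zi := M.gen (g := gz T zi) (false, none)

theorem m_ze (e : ze * zi = 1) (e3 : zi ^ 3 = T.G.P2) : M (gz T zi) 0 0 0 0 ze := by
  rw [show ze = 3 * T.Pi * (zi * zi) by
    linear_combination (-ze) * T.inv - 3 * T.Pi * ze * e3 + 3 * T.Pi * zi * zi * e]
  exact ((M.num (n := 0) 3).mul (of_gen T.mPi)).mul (m_zi.mul m_zi)

theorem up_gz (e3 : zi ^ 3 = T.G.P2) (b : Fin 6) : Up (gz T zi) 0 (fr T.G b) := by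
  have k : ∀ b, M (gz T zi) 1 1 0 0 (fr T.G b zi) := fun b => by
    have := D_cube (fr T.G b) zi
    rw [e3] at this
    rw [show fr T.G b zi = T.Pi * zi * fr T.G b T.G.P2 by
      linear_combination (-fr T.G b zi) * T.inv - T.Pi * zi * this - 3 * T.Pi * fr T.G b zi * e3]
    exact ((of_gen T.mPi).mul m_zi).mul' (of_gen (T.m_frP2 b)) (by omega) le_rfl le_rfl le_rfl le_rfl
      le_rfl
  rintro ⟨s, _ | x⟩
  · refine ⟨?_, False.elim⟩
    cases s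
    · exact k b
    · change M (gz T zi) 1 1 0 0 (fr T.G b (T.G.c zi))
      rw [T.fr_c]; exact conj_gz (k _)
  · exact ⟨of_gen (T.up b (s, x)).1, fun h => of_gen ((T.up b (s, x)).2 h)⟩

section hom
variable {G : GHP A} {G' : GHP B} {φ : A →ₐ[ℂ] B} (m : GHP.Hom G G' φ)
include m

theorem h_fr (b : Fin 6) (f : A) : φ (fr G b f) = fr G' b (φ f) := by
  fin_cases b
  exacts [m.th f, m.tp f, m.et f, m.ep f, m.H f, m.Hb f]

theorem h_xi (ze zi : A) (b : Fin 6) : φ (xi G ze zi b) = xi G' (φ ze) (φ zi) b := by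
  fin_cases b <;> simp only [xi, Fin.reduceFinMk, Matrix.cons_val, map_neg, map_mul, map_add,
    map_sub, map_pow, map_ofNat, m.th, m.tp, m.et, m.ep, m.c, m.rh, m.rh', m.ta, m.ta']

theorem h_g0 (a b e : Fin 6) : φ (g0 G a b e) = g0 G' a b e := by
  fin_cases a <;> fin_cases b <;> fin_cases e <;>
    simp only [g0, Fin.reduceFinMk, Matrix.cons_val, Pi.zero_apply, map_neg, map_mul, map_add,
      map_sub, map_zero, map_one, m.c, m.ka, m.si, m.rh, m.ta, m.ka', m.si', m.rh', m.ta', m.P2]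

theorem h_kap (ze zi : A) (b e : Fin 6) :
    φ (kap G (xi G ze zi) b e) = kap G' (xi G' (φ ze) (φ zi)) b e := by
  simp only [kap, gam, map_sub, map_sum, map_mul, h_xi m, h_g0 m, h_fr m]

theorem h_kz (ze zi : A) : φ (∑ a, xi G ze zi a * fr G a (G.c ze)) =
    ∑ a, xi G' (φ ze) (φ zi) a * fr G' a (G'.c (φ ze)) := by
  simp only [map_sum, map_mul, h_xi m, h_fr m, m.c]

end hom

/-- The exact case. -/
theorem exact {G : GHP A} (h : G.IsD) (e : ze * zi = 1) (e3 : zi ^ 3 = G.P2) :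
    (∀ b e, kap G (xi G ze zi) b e = 0) ∧ ∑ a, xi G ze zi a * fr G a (G.c ze) = 0 := by
  letI := starOf G.c h.is.cc
  have hs : ∀ f : A, star f = G.c f := fun _ => rfl
  have x : xi G ze zi = x2 (h.td hs ze zi e e3) := by
    have a0 : G.th ze = _ := (h.td hs ze zi e e3).ze0
    have a1 : G.tp ze = _ := (h.td hs ze zi e e3).ze1
    have a2 : G.et ze = _ := (h.td hs ze zi e e3).ze2
    have a3 : G.ep ze = _ := (h.td hs ze zi e e3).ze3
    funext b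
    fin_cases b <;> simp only [xi, x2, Fin.reduceFinMk, Matrix.cons_val, a0, a1, a2, a3,
      GHP.IsD.td, P354NP.TD.a, hs] <;> ring
  have g : ∀ a b k, g0 G a b k = (h.td hs ze zi e e3).up a b k := fun a b k => by
    fin_cases a <;> fin_cases b <;> fin_cases k <;>
      simp only [g0, P354NP.TD.up, Fin.reduceFinMk, Matrix.cons_val, Pi.zero_apply, GHP.IsD.td, hs,
        h.ka, h.si, h.ka', h.si', ← e3, map_zero, map_pow] <;> ring
  rw [x]
  exact ⟨fun b k => by simp only [kap, gam, g]; exact td_kill _ b k, td_kill' _⟩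

theorem loc (T : Tv A) (e : ze * zi = 1) (e3 : zi ^ 3 = T.G.P2) :
    (∀ b e, ∃ n, M (gz T zi) n n 1 0 (kap T.G (xi T.G ze zi) b e)) ∧
      ∃ n, M (gz T zi) n n 1 0 (∑ a, xi T.G ze zi a * fr T.G a (T.G.c ze)) := by
  have ad : ∀ {a f g}, (∃ n, M (gz T zi) n n a 0 f) → (∃ n, M (gz T zi) n n a 0 g) →
      ∃ n, M (gz T zi) n n a 0 (f + g) := fun ⟨n, p⟩ ⟨k, q⟩ =>
    ⟨n + k, (p.mono (by omega) (by omega) le_rfl le_rfl).add
      (q.mono (by omega) (by omega) le_rfl le_rfl)⟩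
  have mu : ∀ {a f g}, (∃ n, M (gz T zi) n n 0 0 f) → (∃ n, M (gz T zi) n n a 0 g) →
      ∃ n, M (gz T zi) n n a 0 (f * g) := fun ⟨n, p⟩ ⟨k, q⟩ =>
    ⟨n + k, p.mul' q (by omega) (by omega) le_rfl (by omega) le_rfl le_rfl⟩
  have de : ∀ {a f} b, (∃ n, M (gz T zi) n n a 0 f) → ∃ n, M (gz T zi) n n a 0 (fr T.G b f) :=
    fun b ⟨n, p⟩ => ⟨n + 1, p.der (up_gz e3 b)⟩
  have co : ∀ {a f}, (∃ n, M (gz T zi) n n a 0 f) → ∃ n, M (gz T zi) n n a 0 (T.G.c f) :=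
    fun ⟨n, p⟩ => ⟨n, conj_gz p⟩
  let S : Subalgebra ℂ A := ⟨⟨⟨⟨{f | ∃ n, M (gz T zi) n n 0 0 f}, mu⟩, ⟨0, M.one⟩⟩, ad,
    ⟨0, M.zero _ _ _ _⟩⟩, fun z => ⟨0, M.c z⟩⟩
  obtain ⟨a1, a2, a3, a4, a5, a6, a7, a8, -⟩ := T.atoms
  have s : GHP.In T.G S := ⟨fun _ => co, fun _ => de 0, fun _ => de 1, fun _ => de 2, fun _ => de 3,
    fun _ => de 4, fun _ => de 5, ⟨1, of_gen a5⟩, ⟨1, of_gen a6⟩, ⟨1, of_gen a1⟩, ⟨1, of_gen a3⟩,
    ⟨1, of_gen a7⟩, ⟨1, of_gen a8⟩, ⟨1, of_gen a2⟩, ⟨1, of_gen a4⟩, ⟨0, of_gen (Tv.a0 T.mP0)⟩,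
    T.h1 ▸ S.zero_mem, ⟨0, of_gen T.mP2⟩, T.h3 ▸ S.zero_mem, ⟨0, of_gen (Tv.a0 T.mP4)⟩⟩
  let I : Ideal S := ⟨⟨⟨{f | ∃ n, M (gz T zi) n n 1 0 f.1}, ad⟩, ⟨0, M.zero _ _ _ _⟩⟩,
    fun c _ h => mu c.2 h⟩
  have st : GHP.Stable (T.G.sub S s) I := ⟨fun _ => co, fun _ => de 0, fun _ => de 1, fun _ => de 2,
    fun _ => de 3, fun _ => de 4, fun _ => de 5⟩
  let ze' : S := ⟨ze, 0, m_ze e e3⟩
  let zi' : S := ⟨zi, 0, m_zi⟩
  have e' : ze' * zi' = 1 := Subtype.ext e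
  have e3' : zi' ^ 3 = (T.G.sub S s).P2 := Subtype.ext e3
  have d := (T.is.sub S s).quot_isD I st ⟨0, of_gen T.mP0⟩ 
    ⟨0, by change M _ _ _ _ _ T.G.P1; rw [T.h1]; exact M.zero _ _ _ _⟩
    ⟨0, by change M _ _ _ _ _ T.G.P3; rw [T.h3]; exact M.zero _ _ _ _⟩ ⟨0, of_gen T.mP4⟩
    (e3' ▸ (IsUnit.of_mul_eq_one ze' (by rw [mul_comm, e'])).pow 3)
  have q := GHP.hom_quot _ I st
  have v := GHP.hom_sub T.G S s
  have x := exact d (ze := Ideal.Quotient.mkₐ ℂ I ze') (zi := Ideal.Quotient.mkₐ ℂ I zi')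
    (by rw [← map_mul, e', map_one]) (by rw [← map_pow, e3', q.P2])
  refine ⟨fun b k => ?_, ?_⟩
  · have := Ideal.Quotient.eq_zero_iff_mem.1 ((h_kap q ze' zi' b k).trans (x.1 b k))
    exact (h_kap v ze' zi' b k) ▸ this
  · have := Ideal.Quotient.eq_zero_iff_mem.1 ((h_kz q ze' zi').trans x.2)
    exact (h_kz v ze' zi') ▸ this

theorem kill : KILL := by
  by_contra h
  simp only [KILL, not_exists, not_forall] at h
  choose A _ _ T ze zi e e3 h using h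
  obtain ⟨a, n, b⟩ := loc (piT T) (ze := ze) (zi := zi) (funext e) (funext e3)
  choose N hN using a
  obtain ⟨K, hK⟩ := (Set.finite_range fun p : Fin 6 × Fin 6 => N p.1 p.2).bddAbove
  have m : ∀ j, GHP.Hom (piT T).G (T j).G (Pi.evalAlgHom ℂ A j) := fun j => by
    constructor <;> intros <;> rfl
  have w : ∀ j w f, wd (fr (piT T).G) w f j = wd (fr (T j).G) w (f j) := fun j w f => by
    induction w with
    | nil => rfl
    | cons b w ih => exact (fr_piG _ b _ j).trans (congrArg _ ih)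
  have v : ∀ j x, (piT T).val x j = (T j).val x := fun j x => by
    have e : ∀ e, (piT T).y e j = (T j).y e := fun e => by fin_cases e <;> rfl
    cases x with
    | p2 => rfl
    | pi => rfl
    | y k => exact e k
    | dy b k => exact (fr_piG _ b _ j).trans (congrArg _ (e k))
    | jet i u => exact (w j u _).trans (congrArg _ (by fin_cases i <;> rfl))
  have t : ∀ j {n f}, M (gz (piT T) zi) n n 1 0 f →
      M (gz (T j) (zi j)) n n 1 0 (Pi.evalAlgHom ℂ A j f) := fun j _ _ p =>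
    p.map (g' := gz (T j) (zi j)) (Pi.evalRingHom A j) id (fun z => ⟨z, rfl⟩) (by
      rintro ⟨_ | _, _ | x⟩
      exacts [⟨rfl, rfl, rfl, id⟩, ⟨v j x, rfl, rfl, id⟩, ⟨rfl, rfl, rfl, id⟩,
        ⟨congrArg (T j).G.c (v j x), rfl, rfl, id⟩])
  refine h (max K n) ⟨fun c k => ?_, ?_⟩
  · have i := le_max_of_le_left (c := n) (hK ⟨(c, k), rfl⟩)
    exact (h_kap (m _) ze zi c k ▸ t _ (hN c k)).mono i i le_rfl le_rfl
  · exact (h_kz (m _) ze zi ▸ t _ b).mono (le_max_right _ _) (le_max_right _ _) le_rfl le_rfl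

end Vale.Agent.P354HK
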